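import Crest.Agent.X212.Sw21.Ly_Mg
import Crest.Agent.X212.Nck90.Cat_Mg
import Crest.Agent.X212.Wl34.Ccl
import Crest.Agent.X212.Num99.Defs

/-! # Row 212, RF-LIX (helper26): all leaves but the numbers -/

set_option autoImplicit false
noncomputable section

namespace Crest.Agent.X212.Lix26
open An M G75

variable {κ lam : Type} [Fintype κ] [Fintype lam] [DecidableEq lam] {Lm : LM κ lam}

/-- **RF-LIX** from NUM -/
theorem lixA (H : Lns95.LH Lm) (nm : NumStmt Lm) : Rf65.LixStmt Lm :=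
  lix H (Sw21.ly H) nm (fun _ _ _ _ _ _ J c hS hJ => Fil70.filA H J c hS hJ)
    (fun _ _ _ _ _ _ J c _ _ => Nck90.cat J c) fun _ _ _ _ _ _ J _ _ _ => Wl34.wlJ J

/-- **RF-LIX** from NUM in the local form -/
theorem lixL (H : Lns95.LH Lm) (nm : Num99.NumLS Lm) : Rf65.LixStmt Lm := lixA H (Num99.numStmt nm)

end Crest.Agent.X212.Lix26
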